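import Vale.Agent.P011.D4Y.Defs
import Vale.Agent.P011N.D1.Base

/-!
Version for big subgroups of `P011.D4Y.Defs`.
-/

open NumberField IsDedekindDomain Topology

namespace Vale.Agent.P011.D4Y

open Vale.Agent.P011.Arith Vale.Agent.P011.MPQ Vale.Agent.P011.D4 Vale.Agent.P011.D4.Oct
  Vale.Agent.P011.E6 Vale.Agent.P011.D4X

section classes

variable {k L E : Type} [Field k] [Field L] [Field E] [Algebra k L] [Algebra k E] [Algebra L E]
  [IsScalarTower k L E]

/-- The finite residual of `GTI`, as a group of linear maps. -/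
def RsIB (ρ σ ι : E ≃ₐ[k] E) (α : E) (a b c : kˣ) (q : Lˣ) :
    Subgroup (OctL E a b c ≃ₗ[E] OctL E a b c) :=
  (fresB (GTI ρ σ ι α a b c q)).map (GTI ρ σ ι α a b c q).subtype

/-- The elements of `ATI` which are scalar multiples of elements of the finite residual. -/
def IsNIB (ρ σ ι : E ≃ₐ[k] E) (α : E) (a b c : kˣ) (q : Lˣ) (z : ATI ρ σ ι α a b c q) : Prop :=
  ∃ (l : Lˣ) (g : OctL E a b c ≃ₗ[E] OctL E a b c), g ∈ RsIB ρ σ ι α a b c q ∧
    ∀ x, z.1 x = ρ (algebraMap L E (l : L)) • g x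

end classes

end Vale.Agent.P011.D4Y
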